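import Vale.Agent.P106.U.H471.US
import Vale.Agent.P106.U.MIC.Stage
import Vale.Agent.P106.U.H336.Sw
import Vale.Agent.P106.U.H652.Row

/-!
# P106 / U / H471 : numbers of the levels function `u` in the frame `MIC.St` (helper471)

* `μS8` : `μS x m / 8 = 1000 cN (x + 12) m`.
* `nJ_le` : `m (n + J + 1) ≤ (2 K1 + 4) h` for large `h`.
* **`f2b_suf`** : `F2b .. d ≤ κ h` for every `κ > 0` (`d` fixed).
* **`sw_suf`** : `2 jm #S ≤ κ h` for `jm ≤ Cj m`, `S = {a N} ∪ SwL .. L`.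
* **`us_suf`** : the fields `u0`, `uT`, `su` of `ScaleOk` (price of `heavy_reX`), from `∑ e ≤ e3 / 2 h`.
-/

set_option autoImplicit false

namespace Vale.Agent.P106.U.H471.US

open Finset Filter
open Vale.Agent.P127 Vale.Agent.P127.Stk Vale.Agent.P127.U Vale.Agent.P106.W Vale.Agent.P106.K
open Vale.Agent.P106.U.S5
open Vale.Agent.P106.U.MIC
open Vale.Agent.P106.U.H652 (Ev3 ev_nat ev_con ev_div ev_q20 ev_sw)
open Vale.Agent.P106.U.H118 (usw)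
open Vale.Agent.P106.U.H357 (uV)
open Vale.Agent.P127.U.CellD (q2 q2_pos)

theorem μS8 (x m : ℕ) : μS x m / 8 = 1000 * cN * xS x * m := by
  unfold μS cμ
  rw [show 8000 * cN * xS x * m = 8 * (1000 * cN * xS x * m) by ring]
  exact Nat.mul_div_cancel_left _ (by norm_num)

theorem cN_pos : 1 ≤ cN := le_trans (by norm_num) (le_max_left 800 cφ)

section

variable {η : ℝ} {x : ℕ} {σ : Cst} {ε : ℝ} {ρ : Thr} {g : Gv} {m B h : ℕ}

/-- number of the unit steps -/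
theorem nJ_le (s : St η x σ ε ρ g m B h) (hh : m * (ρ.J + 1) ≤ h) :
    (m : ℝ) * ((s.R.n : ℝ) + s.pn.J + 1) ≤ (2 * σ.K1 + 4) * h := by
  have e1 := s.run.hm
  have e2 := s.run.hh
  have e3 := s.run.hJ
  have e4 := s.run.hq
  have e5 := s.run.hr0
  have h1 := H336.mn_le s.run.ok.pth (K1 := σ.K1) (by rw [e4, e5, e2]; exact s.run.qr)
  rw [e1, e2] at h1
  have h2 : (m : ℝ) * ((ρ.J : ℝ) + 1) ≤ h := by exact_mod_cast hh
  rw [e3]
  linarith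

end

/-- **the sums of `F2` are small** -/
theorem f2b_suf {σ : Cst} (hσ : σ.Ok) (ε : ℝ) {ρ : Thr} (hρ : ρ.Ok) (η : ℝ) (x d : ℕ) {κ : ℝ} (hκ : 0 < κ) :
    Suf σ ε fun g m B h => ∀ s : St η x σ ε ρ g m B h, S3.F2b s.R s.pn B (μS x m) (KS ρ) d ≤ κ * h := by
  have hK1 := hσ.bs.K10
  have hK0 : 0 ≤ KS ρ := by unfold KS; have := hρ.K1; positivity
  have hKs : (0 : ℝ) ≤ 2 * σ.K1 + 4 := by linarith
  obtain ⟨CC, hCC⟩ : ∃ CC : ℝ, CC = KS ρ * ((d : ℝ) + 1) ^ 2 * (cμ * xS x + 2) * (2 * σ.K1 + 4) := ⟨_, rfl⟩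
  have hCC0 : 0 ≤ CC := by rw [hCC]; positivity
  have hx : 0 < 1000 * cN * xS x := by
    have := cN_pos
    unfold xS
    positivity
  have key : Ev3 fun m B h => CC * q2 (1000 * cN * xS x * m) ≤ κ / 2 ∧ 1 ≤ m ∧ (1 : ℝ) / B ≤ κ / 2 ∧ 1 ≤ B ∧
      m * (ρ.J + 1) ≤ h := by
    refine ((Ev3.of_m ((ev_q20 CC 0 (1000 * cN * xS x) hx (κ := κ / 2) (by positivity)).and (ev_nat 1))).and
      ((Ev3.of_B' fun _ => (ev_div 1 (κ := κ / 2) (by positivity)).and (ev_nat 1)).and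
        (Ev3.of_h fun m B => ev_nat (m * (ρ.J + 1))))).mono fun m B h H => ?_
    obtain ⟨⟨h1, h2⟩, ⟨h3, h4⟩, h5⟩ := H
    rw [pow_zero, mul_one] at h1
    exact ⟨h1, h2, h3, h4, h5⟩
  refine Suf.of_ev3 fun g _ => ?_
  obtain ⟨m0, H⟩ := key.out
  refine ⟨m0, fun m hm => ?_⟩
  obtain ⟨B0, H⟩ := H m hm
  refine ⟨B0, fun B hB => ?_⟩
  obtain ⟨h0, H⟩ := H B hB
  refine ⟨h0, fun h hh s => ?_⟩
  obtain ⟨h1, h2, h3, h4, h5⟩ := H h hh
  have n1 := nJ_le s h5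
  have e1 := s.run.hm
  have e2 := s.run.hh
  have hm0 : (1 : ℝ) ≤ m := by exact_mod_cast h2
  have hB0 : (1 : ℝ) ≤ B := by exact_mod_cast h4
  have hh0 : (0 : ℝ) ≤ h := Nat.cast_nonneg _
  unfold S3.F2b
  rw [e1, e2, μS8]
  have a1 : (h : ℝ) / B ≤ κ / 2 * h := by
    have := mul_le_mul_of_nonneg_right h3 hh0
    rw [div_eq_mul_one_div, mul_comm]
    exact this
  have b1 : (m : ℝ) + (μS x m : ℕ) + 1 ≤ (cμ * xS x + 2) * m := by
    unfold μS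
    push_cast
    linarith
  have q0 := (q2_pos (1000 * cN * xS x * m)).le
  have n0 : (0 : ℝ) ≤ (s.R.n : ℝ) + s.pn.J + 1 := by positivity
  have a2 : KS ρ * ((d : ℝ) + 1) ^ 2 * ((m : ℝ) + (μS x m : ℕ) + 1) * q2 (1000 * cN * xS x * m) *
      ((s.R.n : ℝ) + s.pn.J + 1) ≤ κ / 2 * h := by
    calc KS ρ * ((d : ℝ) + 1) ^ 2 * ((m : ℝ) + (μS x m : ℕ) + 1) * q2 (1000 * cN * xS x * m) * ((s.R.n : ℝ) + s.pn.J + 1) ≤
        KS ρ * ((d : ℝ) + 1) ^ 2 * ((cμ * xS x + 2) * m) * q2 (1000 * cN * xS x * m) * ((s.R.n : ℝ) + s.pn.J + 1) := by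
          gcongr
      _ = KS ρ * ((d : ℝ) + 1) ^ 2 * (cμ * xS x + 2) * q2 (1000 * cN * xS x * m) * (m * ((s.R.n : ℝ) + s.pn.J + 1)) := by
          ring
      _ ≤ KS ρ * ((d : ℝ) + 1) ^ 2 * (cμ * xS x + 2) * q2 (1000 * cN * xS x * m) * ((2 * σ.K1 + 4) * h) := by
          gcongr
      _ = CC * q2 (1000 * cN * xS x * m) * h := by
          rw [hCC]
          ring
      _ ≤ κ / 2 * h := mul_le_mul_of_nonneg_right h1 hh0
  linarith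

/-- the exceptional levels with the last one -/
noncomputable def SwN {η : ℝ} {x : ℕ} {σ : Cst} {ε : ℝ} {ρ : Thr} {g : Gv} {m B h : ℕ} (s : St η x σ ε ρ g m B h) (L : ℕ) :
    Finset ℕ := insert (s.a s.N) (H336.SwL s.R B s.Vs s.Xs L)

/-- **few exceptional levels** -/
theorem swN_le {η : ℝ} {x : ℕ} {σ : Cst} {ε : ℝ} {ρ : Thr} {g : Gv} {m B h : ℕ}
    (s : St η x σ ε ρ g m B h) (hB : 1 ≤ B) (L : ℕ) :
    (m : ℝ) * (SwN s L).card ≤ ((L + 1) * (4 + (L + 1) * (2 * σ.K1 + 3))) * ((h : ℝ) / B) + ((L + 1) * (L + 2) + 1) * m := by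
  have e1 := s.run.hm
  have e2 := s.run.hh
  have e4 := s.run.hq
  have e5 := s.run.hr0
  have h1 := H336.SwL_le s.run.ok.pth (K1 := σ.K1) (by rw [e4, e5, e2]; exact s.run.qr) L hB s.f2.runs s.f2.xs
  rw [e1, e2] at h1
  have h2 : ((SwN s L).card : ℝ) ≤ (H336.SwL s.R B s.Vs s.Xs L).card + 1 := by
    exact_mod_cast Finset.card_insert_le _ _
  have h3 := mul_le_mul_of_nonneg_left h2 (Nat.cast_nonneg m : (0 : ℝ) ≤ m)
  linarith

/-- **the prices of the switches are small** -/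
theorem sw_suf {σ : Cst} (hσ : σ.Ok) (ε : ℝ) (ρ : Thr) (η : ℝ) (x L : ℕ) {Cj : ℝ} (hC : 0 ≤ Cj) {κ : ℝ}
    (hκ : 0 < κ) :
    Suf σ ε fun g m B h => ∀ s : St η x σ ε ρ g m B h, ∀ jm : ℝ, jm ≤ Cj * m → 2 * jm * (SwN s L).card ≤ κ * h := by
  have hK1 := hσ.bs.K10
  have key := ((ev_sw (2 * Cj) ((L + 1) * (4 + (L + 1) * (2 * σ.K1 + 3))) ((L + 1) * (L + 2) + 1) hκ).and
    (Ev3.of_B' fun _ => ev_nat 1))
  refine Suf.of_ev3 fun g _ => ?_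
  obtain ⟨m0, H⟩ := key.out
  refine ⟨m0, fun m hm => ?_⟩
  obtain ⟨B0, H⟩ := H m hm
  refine ⟨B0, fun B hB => ?_⟩
  obtain ⟨h0, H⟩ := H B hB
  refine ⟨h0, fun h hh s jm hj => ?_⟩
  obtain ⟨h1, h2⟩ := H h hh
  have h3 := swN_le s h2 L
  have c0 : (0 : ℝ) ≤ (SwN s L).card := Nat.cast_nonneg _
  have h4 : 2 * jm * (SwN s L).card ≤ 2 * (Cj * m) * (SwN s L).card :=
    mul_le_mul_of_nonneg_right (by linarith) c0
  have h5 : 2 * (Cj * m) * (SwN s L).card = 2 * Cj * (m * (SwN s L).card) := by ring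
  have h6 : 2 * Cj * (m * (SwN s L).card) ≤ 2 * Cj * (((L + 1) * (4 + (L + 1) * (2 * σ.K1 + 3))) * ((h : ℝ) / B) +
      ((L + 1) * (L + 2) + 1) * m) := mul_le_mul_of_nonneg_left h3 (by positivity)
  linarith

/-- **the fields `u0`, `uT`, `su` of `ScaleOk`**, from the errors of the time steps -/
theorem us_suf {σ : Cst} (hσ : σ.Ok) (ε : ℝ) {ρ : Thr} (hρ : ρ.Ok) (η : ℝ) (x L : ℕ) {Cj : ℝ} (hC : 0 ≤ Cj) {e3 : ℝ}
    (he3 : 0 < e3) :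
    Suf σ ε fun g m B h => ∀ s : St η x σ ε ρ g m B h, ∃ xx : ℕ → ℝ, (∀ k, 0 ≤ xx k) ∧
      (∀ k ∈ Icc 1 s.R.n, S3.lv s.R k ∈ s.Vs → S3.lv s.R k ∉ s.Xs → s.R.IsA k →
        Stk.hc s.R.Q (s.R.C.T k) ((S3.mt s.R s.F (μS x m) s.o s.o').lt k) ≤
          KS ρ * (((μS x m : ℕ) : ℝ) + s.R.m) + xx k) ∧
      ∀ jm : ℝ, 0 ≤ jm → jm ≤ Cj * m → ∀ e : ℕ → ℝ, (∀ k, 0 ≤ e k) →
        ∑ k ∈ (range s.N).filter (fun k => s.a (k + 1) = s.a k + 1), e k ≤ e3 / 2 * h →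
        (∀ z, 0 ≤ uV s.N s.a e z + usw (SwN s L : Set ℕ) jm (xL s.N s.a s.f xx) z + xL s.N s.a s.f xx z) ∧
        (∀ z, z ∉ TL s.N s.a (SwN s L) →
          uV s.N s.a e z + usw (SwN s L : Set ℕ) jm (xL s.N s.a s.f xx) z + xL s.N s.a s.f xx z = 0) ∧
        ∑ z ∈ TL s.N s.a (SwN s L),
          (uV s.N s.a e z + usw (SwN s L : Set ℕ) jm (xL s.N s.a s.f xx) z + xL s.N s.a s.f xx z) ≤ e3 * h := by
  refine ((f2b_suf hσ ε hρ η x 0 (κ := e3 / 16) (by positivity)).and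
    (sw_suf hσ ε ρ η x L hC (κ := e3 / 4) (by positivity))).mono fun g m B h _ H s => ?_
  obtain ⟨H1, H2⟩ := H
  obtain ⟨xx, x0, x1, x2⟩ := s.f2o.jun
  refine ⟨xx, x0, x1, fun jm hj0 hj e he hU => ?_⟩
  have hP := s.run.ok.pth
  have hi := s.hi0
  have hNc : s.i0 + s.N = H823.Cmp.Nc s.R s.R.b1 := by
    unfold St.N nz
    omega
  have hh0 : (0 : ℝ) ≤ h := Nat.cast_nonneg _
  have hst : ∀ k < s.N, s.a (k + 1) = s.a k ∨ s.a (k + 1) = s.a k + 1 := fun k hk => by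
    rcases H823.Cmp.step2 (x := s.R.b1) hP (j := s.i0 + k) (by omega) with ⟨_, h2, _⟩ | ⟨_, h2, _⟩
    · exact Or.inr h2
    · exact Or.inl h2
  refine us_fin (n := s.R.n) (lev_mono hst)
    (fun i k hik hk => H823.Cmp.idx_strict hP (by omega) (by omega)) (fun k _ => H823.Cmp.idx_le _) he x0 hj0 hU
    (x2.trans (H1 s)) ?_
  have := H2 s jm hj
  linarith

end Vale.Agent.P106.U.H471.US
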