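import Vale.Agent.P106.U.H471.UN
import Vale.Agent.P106.U.H812.RecS
import Vale.Agent.P106.U.H459.XB
import Vale.Agent.P106.U.H357.USg

/-!
# P106 / U / H471 : numbers of the sum of the errors of the time steps (helper471)

The sum `∑ eH` over the time steps (helper357, `us1`) has the terms `2 (m log 2) (#XL + #XE)`, `(15 + cYY) nA`, `13 m cc`,
`2^(22 g) √(nA (q (#XL + 1) (pv log 2) + cS √(nA X)))`, `2^(22 g) √(nA F2b)`; `g = gS x m`, `μ = μS x m`.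

* `ev_root` : `2^(e y m) √(nA Y) ≤ κ h` for `Y ≤ C3 h/B + C4 m + C6 m q2 (c y m) h`, `2 e < c`.
* `St.nA_le` : `m a N ≤ (2 K1 + 4) h`.
* **`xl_suf`**, **`xb_suf`**, **`lin_suf`**, **`root_suf`**, **`rootF_suf`** : one term each, over `MIC.St`.
* `XL0` : the exceptional levels of switch type; `xlv0` : `H357.XLv`; `card_XL0`.
* **`ue3`** : the whole sum `≤ e3 / 2 h`.
-/

set_option autoImplicit false

namespace Vale.Agent.P106.U.H471.US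

open Finset Filter
open Vale.Agent.P127 Vale.Agent.P127.Stk Vale.Agent.P127.U Vale.Agent.P106.W Vale.Agent.P106.K
open Vale.Agent.P106.U.S5
open Vale.Agent.P106.U.MIC
open Vale.Agent.P106.U.H652 (Ev3 ev_nat ev_con ev_div ev_q2 ev_q20 ev_sw sqrt_q2)
open Vale.Agent.P127.U.CellD (q2 q2_pos)

/-! ### one number -/

/-- **under the root** -/
theorem ev_root {e c y : ℕ} (hc : 2 * e < c) (hy : 1 ≤ y) {Ca C3 C4 C6 : ℝ} (h3 : 0 ≤ C3) (h4 : 0 ≤ C4)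
    (h6 : 0 ≤ C6) (_ : 0 ≤ Ca) {κ : ℝ} (hκ : 0 < κ) :
    Ev3 fun m B h => ∀ nA Y : ℝ, 0 ≤ nA → nA ≤ Ca * h →
      Y ≤ C3 * ((h : ℝ) / B) + C4 * m + C6 * (m * q2 (c * y * m)) * h →
      2 ^ (e * y * m) * Real.sqrt (nA * Y) ≤ κ * h := by
  have hm1 : ∀ᶠ m : ℕ in atTop, Ca * C6 * (m : ℝ) ^ 1 * 2 ^ (2 * e * y * m) * q2 (c * y * m) ≤ κ ^ 2 / 3 :=
    ev_q2 (Ca * C6) 1 (2 * e * y) (c * y) (Nat.mul_lt_mul_of_pos_right hc hy) (by positivity)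
  unfold Ev3
  filter_upwards [hm1] with m e1
  filter_upwards [ev_con (Ca * C3 * 2 ^ (2 * e * y * m)) (κ := κ ^ 2 / 3) (by positivity), ev_nat 1] with B e2 hB
  filter_upwards [ev_con (Ca * C4 * m * 2 ^ (2 * e * y * m)) (κ := κ ^ 2 / 3) (by positivity)] with h e3 nA Y n0 n1 hY
  have hBr : (0 : ℝ) < B := by exact_mod_cast hB
  have hh : (0 : ℝ) ≤ h := Nat.cast_nonneg _
  have hq0 : 0 ≤ q2 (c * y * m) := (q2_pos _).le
  have eP : (2 : ℝ) ^ (2 * e * y * m) = (2 ^ (e * y * m)) ^ 2 := by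
    rw [← pow_mul]
    congr 1
    ring
  rw [eP] at e1 e2 e3
  have hP0 : (0 : ℝ) < 2 ^ (e * y * m) := by positivity
  generalize (2 : ℝ) ^ (e * y * m) = P at e1 e2 e3 hP0 ⊢
  generalize q2 (c * y * m) = q at e1 hY hq0
  set Y' : ℝ := C3 * ((h : ℝ) / B) + C4 * m + C6 * (m * q) * h with hY'
  have hY0 : 0 ≤ Y' := by rw [hY']; positivity
  have b1 : nA * Y ≤ Ca * h * Y' :=
    (mul_le_mul_of_nonneg_left hY n0).trans (mul_le_mul_of_nonneg_right n1 hY0)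
  -- the three parts
  have c2 : Ca * C3 * ((h : ℝ) / B) * P ^ 2 ≤ κ ^ 2 / 3 * h := by
    have : Ca * C3 * ((h : ℝ) / B) * P ^ 2 = Ca * C3 * P ^ 2 * h / B := by ring
    rw [this, div_le_iff₀ hBr]
    have := mul_le_mul_of_nonneg_right e2 hh
    linarith
  have c3 : Ca * C4 * m * P ^ 2 ≤ κ ^ 2 / 3 * h := e3
  have c1 : Ca * C6 * (m * q) * h * P ^ 2 ≤ κ ^ 2 / 3 * h := by
    have h1 := mul_le_mul_of_nonneg_right e1 hh
    rw [pow_one] at h1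
    linarith
  have c4 : Ca * h * Y' * P ^ 2 ≤ (κ * h) ^ 2 := by
    have e0 : Ca * h * Y' * P ^ 2 = h * (Ca * C3 * ((h : ℝ) / B) * P ^ 2 + Ca * C4 * m * P ^ 2 +
        Ca * C6 * (m * q) * h * P ^ 2) := by
      rw [hY']
      ring
    rw [e0]
    have : (κ * h) ^ 2 = h * (κ ^ 2 / 3 * h + κ ^ 2 / 3 * h + κ ^ 2 / 3 * h) := by ring
    rw [this]
    exact mul_le_mul_of_nonneg_left (add_le_add (add_le_add c2 c3) c1) hh
  have c5 : P * Real.sqrt (nA * Y) = Real.sqrt (P ^ 2 * (nA * Y)) := by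
    rw [Real.sqrt_mul (sq_nonneg P), Real.sqrt_sq hP0.le]
  rw [c5]
  refine Real.sqrt_le_iff.2 ⟨by positivity, le_trans ?_ c4⟩
  rw [mul_comm (P ^ 2)]
  exact mul_le_mul_of_nonneg_right b1 (sq_nonneg P)

/-! ### over the frame -/

section

variable {η : ℝ} {x : ℕ} {σ : Cst} {ε : ℝ} {ρ : Thr} {g : Gv} {m B h : ℕ}

/-- the levels of the compressed path are levels of the record -/
theorem aN_le_n (s : St η x σ ε ρ g m B h) : s.a s.N ≤ s.R.n := by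
  have hP := s.run.ok.pth
  have h1 : s.a s.N = H833.aN s.R (ix s.R s.i0 (nz s.R s.i0)) := rfl
  have h2 := H833.aN_le hP (Nat.zero_le (ix s.R s.i0 (nz s.R s.i0))) (H812.ix_le_J s.R s.pn s.i0 _)
  have h3 := H812.ix_le_n s.R s.i0 (nz s.R s.i0)
  have h4 : H833.aN s.R 0 = 0 := by
    unfold H833.aN
    rw [hP.a0, Nat.zero_div]
  omega

/-- number of the levels -/
theorem nA_le (s : St η x σ ε ρ g m B h) : (m : ℝ) * (s.a s.N : ℝ) ≤ (2 * σ.K1 + 3) * h := by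
  have e1 := s.run.hm
  have e2 := s.run.hh
  have e4 := s.run.hq
  have e5 := s.run.hr0
  have h1 := H336.mn_le s.run.ok.pth (K1 := σ.K1) (by rw [e4, e5, e2]; exact s.run.qr)
  rw [e1, e2] at h1
  have h2 : ((s.a s.N : ℕ) : ℝ) ≤ s.R.n := by exact_mod_cast aN_le_n s
  exact (mul_le_mul_of_nonneg_left h2 (Nat.cast_nonneg m)).trans h1

end

/-- exceptional levels of switch type -/
theorem xl_suf (σ : Cst) (ε : ℝ) (C1 C2 : ℝ) {κ : ℝ} (hκ : 0 < κ) :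
    Suf σ ε fun _ m B h => ∀ X : ℝ, (m : ℝ) * X ≤ C1 * ((h : ℝ) / B) + C2 * m → 2 * (m * Real.log 2) * X ≤ κ * h := by
  have hl : 0 ≤ Real.log 2 := Real.log_nonneg (by norm_num)
  refine Suf.of_ev3 fun g _ => ?_
  obtain ⟨m0, H⟩ := (ev_sw (2 * Real.log 2) C1 C2 hκ).out
  refine ⟨m0, fun m hm => ?_⟩
  obtain ⟨B0, H⟩ := H m hm
  refine ⟨B0, fun B hB => ?_⟩
  obtain ⟨h0, H⟩ := H B hB
  refine ⟨h0, fun h hh X hX => ?_⟩
  have h1 := H h hh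
  have h2 := mul_le_mul_of_nonneg_left hX (show 0 ≤ 2 * Real.log 2 by positivity)
  linarith

/-- a bounded price of every level -/
theorem lin_suf {σ : Cst} (hσ : σ.Ok) (ε : ℝ) (ρ : Thr) (η : ℝ) (x : ℕ) {C : ℝ} (hC : 0 ≤ C) {κ : ℝ} (hκ : 0 < κ) :
    Suf σ ε fun g m B h => ∀ s : St η x σ ε ρ g m B h, C * (s.a s.N : ℝ) ≤ κ * h := by
  have hK1 := hσ.bs.K10
  refine Suf.of_ev3 fun g _ => ?_
  have key : Ev3 fun m _ _ => C * (2 * σ.K1 + 3) ≤ κ * m ∧ 1 ≤ m :=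
    Ev3.of_m ((ev_con (C * (2 * σ.K1 + 3)) hκ).and (ev_nat 1))
  obtain ⟨m0, H⟩ := key.out
  refine ⟨m0, fun m hm => ?_⟩
  obtain ⟨B0, H⟩ := H m hm
  refine ⟨B0, fun B hB => ?_⟩
  obtain ⟨h0, H⟩ := H B hB
  refine ⟨h0, fun h hh s => ?_⟩
  obtain ⟨h1, h2⟩ := H h hh
  have n1 := nA_le s
  have hm0 : (1 : ℝ) ≤ m := by exact_mod_cast h2
  have hh0 : (0 : ℝ) ≤ h := Nat.cast_nonneg _
  have b1 : (m : ℝ) * (C * (s.a s.N : ℝ)) ≤ m * (κ * h) := by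
    calc (m : ℝ) * (C * (s.a s.N : ℝ)) = C * (m * (s.a s.N : ℝ)) := by ring
      _ ≤ C * ((2 * σ.K1 + 3) * h) := mul_le_mul_of_nonneg_left n1 hC
      _ = C * (2 * σ.K1 + 3) * h := by ring
      _ ≤ κ * m * h := mul_le_mul_of_nonneg_right h1 hh0
      _ = m * (κ * h) := by ring
  exact le_of_mul_le_mul_left b1 (by linarith)

theorem μS4 (x m : ℕ) : μS x m / 4 = 2 * (1000 * cN * xS x * m) := by
  unfold μS cμ
  rw [show 8000 * cN * xS x * m = 4 * (2 * (1000 * cN * xS x * m)) by ring]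
  exact Nat.mul_div_cancel_left _ (by norm_num)

theorem g22 (x m : ℕ) : 22 * MIC.gS x m = 176 * xS x * m := by
  unfold MIC.gS
  ring

theorem cN_big : 2 * 176 < 1000 * cN := by
  have : 800 ≤ cN := le_max_left _ _
  omega

theorem xS_pos (x : ℕ) : 1 ≤ xS x := by
  unfold xS
  omega

/-- **the roots of the telescoped first informations** -/
theorem root_suf {σ : Cst} (hσ : σ.Ok) (ε : ℝ) (ρ : Thr) (η : ℝ) (x : ℕ) {C1 C2 Cp Q cS D : ℝ} (h1 : 0 ≤ C1) (h2 : 0 ≤ C2)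
    (hp : 0 ≤ Cp) (hQ : 0 ≤ Q) (hS : 0 ≤ cS) (hD : 0 ≤ D) {κ : ℝ} (hκ : 0 < κ) :
    Suf σ ε fun g m B h => ∀ s : St η x σ ε ρ g m B h, ∀ X pv : ℝ, 0 ≤ X → 0 ≤ pv →
      (m : ℝ) * X ≤ C1 * ((h : ℝ) / B) + C2 * m → pv ≤ Cp * m →
      2 ^ (22 * MIC.gS x m) * Real.sqrt ((s.a s.N : ℝ) * (Q * (X + 1) * (pv * Real.log 2) +
        cS * Real.sqrt ((s.a s.N : ℝ) * (D * ((s.R.n : ℝ) + s.pn.J + 1) * q2 (μS x m / 4))))) ≤ κ * h := by
  have hl : 0 ≤ Real.log 2 := Real.log_nonneg (by norm_num)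
  have hK1 := hσ.bs.K10
  obtain ⟨Ca, hCa⟩ : ∃ Ca : ℝ, Ca = 2 * σ.K1 + 4 := ⟨_, rfl⟩
  have hCa0 : 0 ≤ Ca := by rw [hCa]; positivity
  have key := (((ev_root (e := 176) (c := 1000 * cN) (y := xS x) cN_big (xS_pos x) (Ca := Ca)
    (C3 := Q * Cp * Real.log 2 * C1) (C4 := Q * Cp * Real.log 2 * (C2 + 1)) (C6 := cS * Real.sqrt (Ca * (D * Ca)))
    (by positivity) (by positivity) (by positivity) hCa0 hκ).and (Ev3.of_m (ev_nat 1))).and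
      (Ev3.of_h fun m B => ev_nat (m * (ρ.J + 1))))
  refine Suf.of_ev3 fun g _ => ?_
  obtain ⟨m0, H⟩ := key.out
  refine ⟨m0, fun m hm => ?_⟩
  obtain ⟨B0, H⟩ := H m hm
  refine ⟨B0, fun B hB => ?_⟩
  obtain ⟨h0, H⟩ := H B hB
  refine ⟨h0, fun h hh s X pv hX0 hpv0 hX hpv => ?_⟩
  obtain ⟨⟨H1, H2⟩, H3⟩ := H h hh
  have n1 := nA_le s
  have n2 := nJ_le s H3
  have hm0 : (1 : ℝ) ≤ m := by exact_mod_cast H2
  have hmp : (0 : ℝ) < m := by linarith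
  have hh0 : (0 : ℝ) ≤ h := Nat.cast_nonneg _
  have hA0 : (0 : ℝ) ≤ (s.a s.N : ℝ) := Nat.cast_nonneg _
  have nA : (s.a s.N : ℝ) ≤ Ca * h := by
    have b1 : (s.a s.N : ℝ) ≤ m * (s.a s.N : ℝ) := le_mul_of_one_le_left hA0 hm0
    have b2 : (2 * σ.K1 + 3) * (h : ℝ) ≤ Ca * h := mul_le_mul_of_nonneg_right (by rw [hCa]; linarith) hh0
    linarith
  have nN0 : (0 : ℝ) ≤ (s.R.n : ℝ) + s.pn.J + 1 := by positivity
  have nN : (s.R.n : ℝ) + s.pn.J + 1 ≤ Ca * h := by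
    have b1 : (s.R.n : ℝ) + s.pn.J + 1 ≤ m * ((s.R.n : ℝ) + s.pn.J + 1) := le_mul_of_one_le_left nN0 hm0
    rw [hCa]
    linarith
  rw [g22, μS4]
  refine H1 _ _ hA0 nA ?_
  -- first part
  have p1 : Q * (X + 1) * (pv * Real.log 2) ≤ Q * Cp * Real.log 2 * C1 * ((h : ℝ) / B) + Q * Cp * Real.log 2 * (C2 + 1) * m := by
    have b1 : Q * (X + 1) * (pv * Real.log 2) ≤ Q * (X + 1) * (Cp * m * Real.log 2) := by gcongr
    have b2 : Q * (X + 1) * (Cp * m * Real.log 2) = Q * Cp * Real.log 2 * (m * X + m) := by ring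
    have b3 : Q * Cp * Real.log 2 * (m * X + m) ≤ Q * Cp * Real.log 2 * (C1 * ((h : ℝ) / B) + C2 * m + m) :=
      mul_le_mul_of_nonneg_left (by linarith) (by positivity)
    have b4 : Q * Cp * Real.log 2 * (C1 * ((h : ℝ) / B) + C2 * m + m) =
        Q * Cp * Real.log 2 * C1 * ((h : ℝ) / B) + Q * Cp * Real.log 2 * (C2 + 1) * m := by ring
    linarith
  -- second part
  have hq0 := (q2_pos (1000 * cN * xS x * m)).le
  have hQ2 := (q2_pos (2 * (1000 * cN * xS x * m))).le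
  have p2 : Real.sqrt ((s.a s.N : ℝ) * (D * ((s.R.n : ℝ) + s.pn.J + 1) * q2 (2 * (1000 * cN * xS x * m)))) ≤
      Real.sqrt (Ca * (D * Ca)) * (q2 (1000 * cN * xS x * m)) * h := by
    have b1 : (s.a s.N : ℝ) * (D * ((s.R.n : ℝ) + s.pn.J + 1) * q2 (2 * (1000 * cN * xS x * m))) ≤
        Ca * h * (D * (Ca * h) * q2 (2 * (1000 * cN * xS x * m))) := by gcongr
    have b2 : Ca * h * (D * (Ca * h) * q2 (2 * (1000 * cN * xS x * m))) =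
        Ca * (D * Ca) * q2 (2 * (1000 * cN * xS x * m)) * (h : ℝ) ^ 2 := by ring
    refine (Real.sqrt_le_sqrt b1).trans ?_
    rw [b2, Real.sqrt_mul (by positivity), Real.sqrt_mul (by positivity), sqrt_q2, Real.sqrt_sq hh0]
  have p3 : Real.sqrt (Ca * (D * Ca)) * (q2 (1000 * cN * xS x * m)) * h ≤
      Real.sqrt (Ca * (D * Ca)) * (m * q2 (1000 * cN * xS x * m)) * h := by
    refine mul_le_mul_of_nonneg_right (mul_le_mul_of_nonneg_left ?_ (Real.sqrt_nonneg _)) hh0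
    exact le_mul_of_one_le_left hq0 hm0
  have p4 := mul_le_mul_of_nonneg_left (p2.trans p3) hS
  have p5 : cS * (Real.sqrt (Ca * (D * Ca)) * (m * q2 (1000 * cN * xS x * m)) * h) =
      cS * Real.sqrt (Ca * (D * Ca)) * (m * q2 (1000 * cN * xS x * m)) * h := by ring
  linarith

/-- **the root of the sums of `F2`** -/
theorem rootF_suf {σ : Cst} (hσ : σ.Ok) (ε : ℝ) {ρ : Thr} (hρ : ρ.Ok) (η : ℝ) (x d : ℕ) {C : ℝ} (hC : 0 ≤ C) {κ : ℝ}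
    (hκ : 0 < κ) :
    Suf σ ε fun g m B h => ∀ s : St η x σ ε ρ g m B h,
      2 ^ (22 * MIC.gS x m) * Real.sqrt ((s.a s.N : ℝ) * (C * S3.F2b s.R s.pn B (μS x m) (KS ρ) d)) ≤ κ * h := by
  have hK1 := hσ.bs.K10
  have hK0 : 0 ≤ KS ρ := by unfold KS; have := hρ.K1; positivity
  obtain ⟨Ca, hCa⟩ : ∃ Ca : ℝ, Ca = 2 * σ.K1 + 4 := ⟨_, rfl⟩
  have hCa0 : 0 ≤ Ca := by rw [hCa]; positivity
  have key := (((ev_root (e := 176) (c := 1000 * cN) (y := xS x) cN_big (xS_pos x) (Ca := Ca)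
    (C3 := C) (C4 := 0) (C6 := C * (KS ρ * ((d : ℝ) + 1) ^ 2 * (cμ * xS x + 2) * Ca))
    hC le_rfl (by positivity) hCa0 hκ).and (Ev3.of_m (ev_nat 1))).and
      (Ev3.of_h fun m B => ev_nat (m * (ρ.J + 1))))
  refine Suf.of_ev3 fun g _ => ?_
  obtain ⟨m0, H⟩ := key.out
  refine ⟨m0, fun m hm => ?_⟩
  obtain ⟨B0, H⟩ := H m hm
  refine ⟨B0, fun B hB => ?_⟩
  obtain ⟨h0, H⟩ := H B hB
  refine ⟨h0, fun h hh s => ?_⟩
  obtain ⟨⟨H1, H2⟩, H3⟩ := H h hh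
  have n1 := nA_le s
  have n2 := nJ_le s H3
  have hm0 : (1 : ℝ) ≤ m := by exact_mod_cast H2
  have hmp : (0 : ℝ) < m := by linarith
  have hh0 : (0 : ℝ) ≤ h := Nat.cast_nonneg _
  have hA0 : (0 : ℝ) ≤ (s.a s.N : ℝ) := Nat.cast_nonneg _
  have nA : (s.a s.N : ℝ) ≤ Ca * h := by
    have b1 : (s.a s.N : ℝ) ≤ m * (s.a s.N : ℝ) := le_mul_of_one_le_left hA0 hm0
    have b2 : (2 * σ.K1 + 3) * (h : ℝ) ≤ Ca * h := mul_le_mul_of_nonneg_right (by rw [hCa]; linarith) hh0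
    linarith
  rw [g22]
  refine H1 _ _ hA0 nA ?_
  have e1 := s.run.hm
  have e2 := s.run.hh
  unfold S3.F2b
  rw [e1, e2, μS8]
  have q0 := (q2_pos (1000 * cN * xS x * m)).le
  have nN0 : (0 : ℝ) ≤ (s.R.n : ℝ) + s.pn.J + 1 := by positivity
  have nN : (s.R.n : ℝ) + s.pn.J + 1 ≤ Ca * h := by
    have b1 : (s.R.n : ℝ) + s.pn.J + 1 ≤ m * ((s.R.n : ℝ) + s.pn.J + 1) := le_mul_of_one_le_left nN0 hm0
    rw [hCa]
    linarith
  have b1 : (m : ℝ) + (μS x m : ℕ) + 1 ≤ (cμ * xS x + 2) * m := by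
    unfold μS
    push_cast
    linarith
  have a2 : KS ρ * ((d : ℝ) + 1) ^ 2 * ((m : ℝ) + (μS x m : ℕ) + 1) * q2 (1000 * cN * xS x * m) *
      ((s.R.n : ℝ) + s.pn.J + 1) ≤
      KS ρ * ((d : ℝ) + 1) ^ 2 * ((cμ * xS x + 2) * m) * q2 (1000 * cN * xS x * m) * (Ca * h) := by gcongr
  have a3 : KS ρ * ((d : ℝ) + 1) ^ 2 * ((cμ * xS x + 2) * m) * q2 (1000 * cN * xS x * m) * (Ca * h) =
      KS ρ * ((d : ℝ) + 1) ^ 2 * (cμ * xS x + 2) * Ca * (m * q2 (1000 * cN * xS x * m)) * h := by ring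
  have a4 := mul_le_mul_of_nonneg_left (a2.trans_eq a3) hC
  rw [zero_mul, add_zero]
  have a5 : C * ((h : ℝ) / B) + C * (KS ρ * ((d : ℝ) + 1) ^ 2 * (cμ * xS x + 2) * Ca * (m * q2 (1000 * cN * xS x * m)) * h) =
      C * ((h : ℝ) / B) + C * (KS ρ * ((d : ℝ) + 1) ^ 2 * (cμ * xS x + 2) * Ca) * (m * q2 (1000 * cN * xS x * m)) * h := by
    ring
  linarith

/-! ### the exceptional levels -/

/-- **the exceptional levels of switch type** -/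
noncomputable def XL0 {Ω : Type} [Fintype Ω] {τ υ : Type} (R : S3.Run Ω τ υ) (B : ℕ) (Vs Xs : Finset ℕ) (i0 L : ℕ) :
    Finset ℕ :=
  (H336.SwL R B Vs Xs L ∪ (H336.SwL R B Vs Xs L).image fun z => z - 1) ∪
    Icc (az R i0 (nz R i0) - (L + 1)) (az R i0 (nz R i0))

/-- `XLv` -/
theorem xlv0 {Ω : Type} [Fintype Ω] {τ υ : Type} (R : S3.Run Ω τ υ) (B : ℕ) (Vs Xs : Finset ℕ) (i0 L : ℕ) :
    H357.XLv R B Vs Xs i0 L (XL0 R B Vs Xs i0 L) := by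
  intro z _ h1 h2
  unfold XL0 at h2
  rw [Finset.mem_union, Finset.mem_union, Finset.mem_image, Finset.mem_Icc] at h2
  push Not at h2
  obtain ⟨⟨h3, h4⟩, h5⟩ := h2
  refine ⟨?_, h3, fun h6 => h4 (z + 1) h6 (by omega)⟩
  by_contra h6
  have := h5 (by omega)
  omega

theorem card_XL0 {Ω : Type} [Fintype Ω] {τ υ : Type} (R : S3.Run Ω τ υ) (B : ℕ) (Vs Xs : Finset ℕ) (i0 L : ℕ) :
    (XL0 R B Vs Xs i0 L).card ≤ 2 * (H336.SwL R B Vs Xs L).card + (L + 2) := by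
  unfold XL0
  have h1 := Finset.card_union_le (H336.SwL R B Vs Xs L ∪ (H336.SwL R B Vs Xs L).image fun z => z - 1)
    (Icc (az R i0 (nz R i0) - (L + 1)) (az R i0 (nz R i0)))
  have h2 := Finset.card_union_le (H336.SwL R B Vs Xs L) ((H336.SwL R B Vs Xs L).image fun z => z - 1)
  have h3 : ((H336.SwL R B Vs Xs L).image fun z => z - 1).card ≤ (H336.SwL R B Vs Xs L).card := Finset.card_image_le
  have h4 : (Icc (az R i0 (nz R i0) - (L + 1)) (az R i0 (nz R i0))).card ≤ L + 2 := by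
    rw [Nat.card_Icc]
    omega
  omega

/-- **few** -/
theorem xl0_le {η : ℝ} {x : ℕ} {σ : Cst} {ε : ℝ} {ρ : Thr} {g : Gv} {m B h : ℕ}
    (s : St η x σ ε ρ g m B h) (hB : 1 ≤ B) (L : ℕ) :
    (m : ℝ) * (XL0 s.R B s.Vs s.Xs s.i0 L).card ≤
      (2 * ((L + 1) * (4 + (L + 1) * (2 * σ.K1 + 3)))) * ((h : ℝ) / B) + (2 * ((L + 1) * (L + 2)) + (L + 2)) * m := by
  have e1 := s.run.hm
  have e2 := s.run.hh
  have e4 := s.run.hq
  have e5 := s.run.hr0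
  have h1 := H336.SwL_le s.run.ok.pth (K1 := σ.K1) (by rw [e4, e5, e2]; exact s.run.qr) L hB s.f2.runs s.f2.xs
  rw [e1, e2] at h1
  have h2 : ((XL0 s.R B s.Vs s.Xs s.i0 L).card : ℝ) ≤ 2 * (H336.SwL s.R B s.Vs s.Xs L).card + (L + 2) := by
    exact_mod_cast card_XL0 s.R B s.Vs s.Xs s.i0 L
  have h3 := mul_le_mul_of_nonneg_left h2 (Nat.cast_nonneg m : (0 : ℝ) ≤ m)
  linarith

/-- **the steps with a bad reading step** -/
theorem xb_suf (σ : Cst) {ε : ℝ} (ρ : Thr) (η : ℝ) (x : ℕ) {κ : ℝ} (hκ : 0 < κ) (hε : 80 * ε ≤ κ) :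
    Suf σ ε fun g m B h => ∀ s : St η x σ ε ρ g m B h, 2 * (m * Real.log 2) * (H459.XB s.R s.i0 s.E).card ≤ κ * h := by
  have hl : 0 ≤ Real.log 2 := Real.log_nonneg (by norm_num)
  refine Suf.of_ev3 fun g _ => ?_
  have key : Ev3 fun m _ h => 2 * (m * Real.log 2) ≤ κ / 2 * h :=
    Ev3.of_h fun m _ => ev_con (2 * (m * Real.log 2)) (κ := κ / 2) (by positivity)
  obtain ⟨m0, H⟩ := key.out
  refine ⟨m0, fun m hm => ?_⟩
  obtain ⟨B0, H⟩ := H m hm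
  refine ⟨B0, fun B hB => ?_⟩
  obtain ⟨h0, H⟩ := H B hB
  refine ⟨h0, fun h hh s => ?_⟩
  have h1 := H h hh
  have h2 : ((H459.XB s.R s.i0 s.E).card : ℝ) ≤ s.E.card + 1 := by exact_mod_cast H459.card_XB s.word.sd s.E
  have h3 := s.word.cE
  have h4 := mul_le_mul_of_nonneg_left h2 (show 0 ≤ 2 * ((m : ℝ) * Real.log 2) by positivity)
  have hh0 : (0 : ℝ) ≤ h := Nat.cast_nonneg _
  have h5 := mul_le_mul_of_nonneg_right hε hh0
  linarith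

/-- **the sum of the errors of the time steps** (right side of `us1` of helper357) -/
theorem ue3 {σ : Cst} (hσ : σ.Ok) {ε : ℝ} {ρ : Thr} (hρ : ρ.Ok) (η : ℝ) (x d : ℕ) {C1 C2 Cp Q cYY cSO cSF D0 D1 : ℝ}
    (h1 : 0 ≤ C1) (h2 : 0 ≤ C2) (hp : 0 ≤ Cp) (hQ : 0 ≤ Q) (hY : 0 ≤ cYY) (hSO : 0 ≤ cSO) (hSF : 0 ≤ cSF) (hD0 : 0 ≤ D0)
    (hD1 : 0 ≤ D1) {e3 : ℝ} (he3 : 0 < e3) (hε : 1280 * ε ≤ e3) :
    Suf σ ε fun g m B h => ∀ s : St η x σ ε ρ g m B h, ∀ X pv cc : ℝ, 0 ≤ X → 0 ≤ pv →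
      (m : ℝ) * X ≤ C1 * ((h : ℝ) / B) + C2 * m → pv ≤ Cp * m → (m : ℝ) * cc ≤ e3 / 250 * h →
      2 * (m * Real.log 2) * (X + (H459.XB s.R s.i0 s.E).card) + (15 + cYY) * (s.a s.N : ℝ) + 13 * m * cc +
        2 ^ (22 * MIC.gS x m) *
          (Real.sqrt ((s.a s.N : ℝ) * (Q * (X + 1) * (pv * Real.log 2) +
            cSO * Real.sqrt ((s.a s.N : ℝ) * (D0 * ((s.R.n : ℝ) + s.pn.J + 1) * q2 (μS x m / 4))))) +
          2 * Real.sqrt ((s.a s.N : ℝ) * (Q * (X + 1) * (pv * Real.log 2) +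
            cSF * Real.sqrt ((s.a s.N : ℝ) * (D1 * ((s.R.n : ℝ) + s.pn.J + 1) * q2 (μS x m / 4))))) +
          3 * Real.sqrt ((s.a s.N : ℝ) * (S3.F2b s.R s.pn B (μS x m) (KS ρ) d))) ≤ e3 / 2 * h := by
  refine ((((((xl_suf σ ε C1 C2 (κ := e3 / 16) (by positivity)).and
    (xb_suf σ ρ η x (κ := e3 / 16) (by positivity) (by linarith))).and
    (lin_suf hσ ε ρ η x (C := 15 + cYY) (by positivity) (κ := e3 / 16) (by positivity))).and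
    (root_suf hσ ε ρ η x h1 h2 hp hQ hSO hD0 (κ := e3 / 64) (by positivity))).and
    (root_suf hσ ε ρ η x h1 h2 hp hQ hSF hD1 (κ := e3 / 64) (by positivity))).and
    (rootF_suf hσ ε hρ η x d (C := 1) zero_le_one (κ := e3 / 64) (by positivity))).mono fun g m B h _ H s X pv cc hX0 hpv0
      hX hpv hcc => ?_
  obtain ⟨⟨⟨⟨⟨H1, H2⟩, H3⟩, H4⟩, H5⟩, H6⟩ := H
  have a1 := H1 X hX
  have a2 := H2 s
  have a3 := H3 s
  have a4 := H4 s X pv hX0 hpv0 hX hpv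
  have a5 := H5 s X pv hX0 hpv0 hX hpv
  have a6 := H6 s
  rw [one_mul] at a6
  have hh0 : (0 : ℝ) ≤ h := Nat.cast_nonneg _
  have hb : 0 ≤ e3 * h := by positivity
  linarith

end Vale.Agent.P106.U.H471.US
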