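import Vale.Agent.P106.U.H459.UE
import Vale.Agent.P106.U.H118.HeavyX

/-!
# P106 / U / H471 : the function `u` of the levels in the heavy intervals, its sum (helper471)

The heavy intervals of helper118 (`heavy_reX`) cost `u z + usw S jm x z + x z` at the level `z` : `u` = errors of the time steps
(helper357), `usw` = switches of the letter, `x` = excess of the junctions (field `jun` of `F2o`, by record index).

* `xL N a f xx` : excess by levels: at the level of a time step `k` of the compressed path `xx (f k)`, at the last level also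
  `xx (f N)`; `xL_nonneg`, `xL_step`, `xL_last`, `xL_zero`, `xL_sum : ∑ z ∈ T, xL z ≤ 2 ∑ i ∈ range (n + 1), xx i`.
* `TL N a S` : the set `T` of `ScaleOk`; **`us_all`** : nonneg, zero outside `T`, sum `≤ U + 2 jm #S + 2 X`.
* `us_fin` : the three fields `u0`, `uT`, `su` of `ScaleOk` with numbers.
-/

set_option autoImplicit false

namespace Vale.Agent.P106.U.H471.US

open Finset
open Vale.Agent.P106.U.H118 (usw usw_nonneg)
open Vale.Agent.P106.U.H357 (uV uV_nonneg uV_le uV_sum uV_zero)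

/-! ### sums along the indices of the record -/

/-- a sum along injective indices -/
theorem sum_idx {N n : ℕ} {f : ℕ → ℕ} (hf : ∀ i k, i < k → k ≤ N → f i < f k) (hn : ∀ k ≤ N, f k ≤ n) {x : ℕ → ℝ}
    (hx : ∀ i, 0 ≤ x i) (p : ℕ → Prop) [DecidablePred p] :
    ∑ k ∈ (range N).filter p, x (f k) ≤ ∑ i ∈ range (n + 1), x i := by
  classical
  have inj : Set.InjOn f ((range N).filter p : Finset ℕ) := by
    intro i hi j hj e
    have hi' := (Finset.mem_filter.1 (Finset.mem_coe.1 hi)).1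
    have hj' := (Finset.mem_filter.1 (Finset.mem_coe.1 hj)).1
    rw [Finset.mem_range] at hi' hj'
    rcases lt_trichotomy i j with h | h | h
    · exact absurd e (hf i j h hj'.le).ne
    · exact h
    · exact absurd e.symm (hf j i h hi'.le).ne
  rw [← Finset.sum_image (f := x) (g := f) inj]
  refine Finset.sum_le_sum_of_subset_of_nonneg ?_ fun i _ _ => hx i
  intro i hi
  obtain ⟨k, hk, rfl⟩ := Finset.mem_image.1 hi
  rw [Finset.mem_filter, Finset.mem_range] at hk
  rw [Finset.mem_range]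
  have := hn k hk.1.le
  omega

/-! ### the excess of the junctions -/

/-- excess by levels -/
noncomputable def xL (N : ℕ) (a f : ℕ → ℕ) (xx : ℕ → ℝ) (z : ℕ) : ℝ :=
  uV N a (fun k => xx (f k)) z + if z = a N then xx (f N) else 0

section xL

variable {N n : ℕ} {a f : ℕ → ℕ} {xx : ℕ → ℝ}

theorem xL_nonneg (hx : ∀ i, 0 ≤ xx i) (z : ℕ) : 0 ≤ xL N a f xx z := by
  refine add_nonneg (uV_nonneg (fun k => hx (f k)) z) ?_
  split_ifs
  · exact hx _
  · exact le_rfl

/-- at a time step -/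
theorem xL_step (hx : ∀ i, 0 ≤ xx i) {k : ℕ} (hk : k < N) (ha : a (k + 1) = a k + 1) : xx (f k) ≤ xL N a f xx (a k) := by
  have h1 := uV_le (N := N) (a := a) (e := fun k => xx (f k)) (fun k => hx (f k)) hk ha
  unfold xL
  have h2 : 0 ≤ (if a k = a N then xx (f N) else 0) := by
    split_ifs
    · exact hx _
    · exact le_rfl
  linarith

/-- at the last state -/
theorem xL_last (hx : ∀ i, 0 ≤ xx i) : xx (f N) ≤ xL N a f xx (a N) := by
  have h1 := uV_nonneg (N := N) (a := a) (e := fun k => xx (f k)) (fun k => hx (f k)) (a N)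
  unfold xL
  rw [if_pos rfl]
  linarith

/-- both, as in `heavy_reX` -/
theorem xL_le (hx : ∀ i, 0 ≤ xx i) {k : ℕ} (hk : k ≤ N) (ha : k = N ∨ a (k + 1) = a k + 1) : xx (f k) ≤ xL N a f xx (a k) := by
  rcases eq_or_lt_of_le hk with h | h
  · subst h
    exact xL_last hx
  · rcases ha with h2 | h2
    · omega
    · exact xL_step hx h h2

theorem xL_zero (hm : ∀ i j, i ≤ j → j ≤ N → a i ≤ a j) {z : ℕ} (hz : z ∉ range (a N + 1)) : xL N a f xx z = 0 := by
  rw [Finset.mem_range] at hz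
  unfold xL
  rw [uV_zero hm (by rw [Finset.mem_range]; omega), if_neg (by omega), add_zero]

theorem xL_sum (hf : ∀ i k, i < k → k ≤ N → f i < f k) (hn : ∀ k ≤ N, f k ≤ n) (hx : ∀ i, 0 ≤ xx i) (T : Finset ℕ) :
    ∑ z ∈ T, xL N a f xx z ≤ 2 * ∑ i ∈ range (n + 1), xx i := by
  classical
  unfold xL
  rw [Finset.sum_add_distrib]
  have h1 := uV_sum (N := N) (a := a) (e := fun k => xx (f k)) (fun k => hx (f k)) T
  have h2 := sum_idx hf hn hx (fun k => a (k + 1) = a k + 1)
  have h3 : ∑ z ∈ T, (if z = a N then xx (f N) else 0) ≤ xx (f N) := by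
    rw [Finset.sum_ite_eq']
    split_ifs
    · exact le_rfl
    · exact hx _
  have h4 : xx (f N) ≤ ∑ i ∈ range (n + 1), xx i :=
    Finset.single_le_sum (f := xx) (fun i _ => hx i) (by
      rw [Finset.mem_range]
      have := hn N le_rfl
      omega)
  linarith

end xL

/-! ### all together -/

/-- the levels -/
def TL (N : ℕ) (a : ℕ → ℕ) (S : Finset ℕ) : Finset ℕ := range (a N + 1) ∪ S

theorem not_TL {N : ℕ} {a : ℕ → ℕ} {S : Finset ℕ} {z : ℕ} (hz : z ∉ TL N a S) : z ∉ range (a N + 1) ∧ z ∉ S := by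
  unfold TL at hz
  rw [Finset.mem_union] at hz
  exact ⟨fun h => hz (Or.inl h), fun h => hz (Or.inr h)⟩

/-- sum of the prices of the switches -/
theorem usw_sum {S : Finset ℕ} {jm X : ℝ} {x : ℕ → ℝ} (hjm : 0 ≤ jm)
    (hX : ∀ T : Finset ℕ, ∑ z ∈ T, x z ≤ X) (T : Finset ℕ) :
    ∑ z ∈ T, usw (S : Set ℕ) jm x z ≤ 2 * jm * S.card + X := by
  classical
  have h0 : ∀ z, usw (S : Set ℕ) jm x z = if z ∈ S then 2 * jm + x (z + 1) else 0 := by
    intro z
    unfold usw
    simp only [Finset.mem_coe]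
  rw [Finset.sum_congr rfl fun z _ => h0 z, ← Finset.sum_filter, Finset.sum_add_distrib, Finset.sum_const, nsmul_eq_mul]
  have h1 : ((T.filter fun z => z ∈ S).card : ℝ) * (2 * jm) ≤ 2 * jm * S.card := by
    rw [mul_comm]
    refine mul_le_mul_of_nonneg_left ?_ (by positivity)
    have : (T.filter fun z => z ∈ S).card ≤ S.card := Finset.card_le_card fun z hz => (Finset.mem_filter.1 hz).2
    exact_mod_cast this
  have h2 : ∑ z ∈ T.filter (fun z => z ∈ S), x (z + 1) ≤ X := by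
    have h3 : ∑ z ∈ T.filter (fun z => z ∈ S), x (z + 1) =
        ∑ z ∈ (T.filter (fun z => z ∈ S)).image (fun z => z + 1), x z :=
      (Finset.sum_image (f := x) (g := fun z => z + 1) fun _ _ _ _ h => Nat.succ_injective h).symm
    rw [h3]
    exact hX _
  linarith

/-- **the function `u` of the levels** -/
theorem us_all {N : ℕ} {a : ℕ → ℕ} {u x : ℕ → ℝ} {S : Finset ℕ} {jm U X : ℝ} (hjm : 0 ≤ jm) (hu : ∀ z, 0 ≤ u z)
    (hx : ∀ z, 0 ≤ x z) (hu0 : ∀ z, z ∉ range (a N + 1) → u z = 0) (hx0 : ∀ z, z ∉ range (a N + 1) → x z = 0)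
    (hU : ∀ T : Finset ℕ, ∑ z ∈ T, u z ≤ U) (hX : ∀ T : Finset ℕ, ∑ z ∈ T, x z ≤ X) :
    (∀ z, 0 ≤ u z + usw (S : Set ℕ) jm x z + x z) ∧
    (∀ z, z ∉ TL N a S → u z + usw (S : Set ℕ) jm x z + x z = 0) ∧
    ∑ z ∈ TL N a S, (u z + usw (S : Set ℕ) jm x z + x z) ≤ U + 2 * jm * S.card + 2 * X := by
  refine ⟨fun z => ?_, fun z hz => ?_, ?_⟩
  · have h1 := usw_nonneg (S := (S : Set ℕ)) hjm hx z
    have h2 := hu z
    have h3 := hx z
    linarith
  · obtain ⟨h1, h2⟩ := not_TL hz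
    rw [hu0 z h1, hx0 z h1]
    unfold usw
    rw [if_neg (by simpa using h2)]
    ring
  · rw [Finset.sum_add_distrib, Finset.sum_add_distrib]
    have h1 := hU (TL N a S)
    have h2 := hX (TL N a S)
    have h3 := usw_sum (S := S) hjm hX (TL N a S)
    linarith

/-- **the fields `u0`, `uT`, `su` of `ScaleOk`** -/
theorem us_fin {N n : ℕ} {a f : ℕ → ℕ} (hm : ∀ i j, i ≤ j → j ≤ N → a i ≤ a j)
    (hf : ∀ i k, i < k → k ≤ N → f i < f k) (hn : ∀ k ≤ N, f k ≤ n) {e xx : ℕ → ℝ} (he : ∀ k, 0 ≤ e k) (hxx : ∀ i, 0 ≤ xx i)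
    {S : Finset ℕ} {jm U X e3 h : ℝ} (hjm : 0 ≤ jm)
    (hU : ∑ k ∈ (range N).filter (fun k => a (k + 1) = a k + 1), e k ≤ U) (hX : ∑ i ∈ range (n + 1), xx i ≤ X)
    (hs : U + 2 * jm * S.card + 4 * X ≤ e3 * h) :
    (∀ z, 0 ≤ uV N a e z + usw (S : Set ℕ) jm (xL N a f xx) z + xL N a f xx z) ∧
    (∀ z, z ∉ TL N a S → uV N a e z + usw (S : Set ℕ) jm (xL N a f xx) z + xL N a f xx z = 0) ∧
    ∑ z ∈ TL N a S, (uV N a e z + usw (S : Set ℕ) jm (xL N a f xx) z + xL N a f xx z) ≤ e3 * h := by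
  obtain ⟨h1, h2, h3⟩ := us_all (N := N) (a := a) (u := uV N a e) (x := xL N a f xx) (S := S) (jm := jm) (U := U)
    (X := 2 * X) hjm (uV_nonneg he) (xL_nonneg hxx)
    (fun z hz => uV_zero hm (by rw [Finset.mem_range] at hz ⊢; omega)) (fun z hz => xL_zero hm hz)
    (fun T => (uV_sum he T).trans hU) (fun T => (xL_sum hf hn hxx T).trans (by linarith))
  exact ⟨h1, h2, h3.trans (by linarith)⟩

/-- monotone levels -/
theorem lev_mono {N : ℕ} {a : ℕ → ℕ} (h : ∀ k < N, a (k + 1) = a k ∨ a (k + 1) = a k + 1) :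
    ∀ i j, i ≤ j → j ≤ N → a i ≤ a j := by
  intro i j hij
  induction j, hij using Nat.le_induction with
  | base => intro _; exact le_rfl
  | succ j _ ih =>
    intro hj
    have h1 := ih (by omega)
    rcases h j (by omega) with h2 | h2 <;> omega

end Vale.Agent.P106.U.H471.US
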