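import Vale.Agent.P127.U.Mic.Colp
import Vale.Agent.P127.Stk.LibDom

/-!
# P106 / U / H471 : weak collinearity of three copies (helper471)

`D` = cell, `W` = letter of the end, `Y` = letter of the ray side (finer than `D`).  On a class of `Y` the points `(θ, τ)` lie on
a line of slope `σ` (up to `e1`, `e3`), the slope is not known given `W` (mass `≥ c'` off every interval `|σ - x| ≤ r`), `D` is a
function of `W` off an event `B`, and the block `X` of the time does not collide given `Y`.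

* `weak_col` : the mass of the `ω` for which two copies given `D` span `≥ η = w²` with probability `< η` only is
  `≤ 2 ε1 + ((2 k + 1) ε + 4 η + 2 β) / c'`.
-/

set_option autoImplicit false

namespace Vale.Agent.P106.U.H471

open Finset Vale.Agent.P127 Vale.Agent.P127.Stk Vale.Agent.P127.U.Pin Vale.Agent.P127.U.Mic

section

variable {Ω : Type} [Fintype Ω] {U V T : Type*} (P : Law Ω)

theorem prE_ind (E : Ω → Prop) : prE P E = P.ex (fun ω => Law.ind (E ω)) := by
  classical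
  unfold prE Law.ex
  rw [Finset.sum_filter]
  refine Finset.sum_congr rfl fun ω _ => ?_
  beta_reduce
  by_cases h : E ω
  · rw [if_pos h, Law.ind_of h, mul_one]
  · rw [if_neg h, Law.ind_not h, mul_zero]

/-- tower with a factor which is a function of the condition -/
theorem tower_mul (Y : Ω → T) (F h : Ω → ℝ)
    (hF : ∀ ω ω', 0 < P.w ω → 0 < P.w ω' → Y ω = Y ω' → F ω = F ω') :
    P.ex (fun ω => F ω * (P.cond Y (Y ω)).ex h) = P.ex (fun ω => F ω * h ω) := by
  rw [← ex_cond P Y (fun ω => F ω * h ω)]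
  refine P.ex_congr fun ω hω => ?_
  have hz := P.pr_pos Y hω
  rw [← Law.ex_const_mul]
  refine Law.ex_congr _ fun ω' h' => ?_
  obtain ⟨h1, h2⟩ := Vale.Agent.P127.U.Pin.cond_supp P Y hz h'
  rw [hF ω' ω h2 hω h1]

theorem ind_compl (p : Prop) : Law.ind (¬ p) = 1 - Law.ind p := by
  by_cases h : p
  · rw [Law.ind_of h, Law.ind_not (not_not.2 h), sub_self]
  · rw [Law.ind_not h, Law.ind_of h, sub_zero]

/-- determinant of two copies -/
noncomputable def dt (S τ : Ω → ℝ) (ω a a' : Ω) : ℝ := |(S a - S ω) * (τ a' - τ ω) - (S a' - S ω) * (τ a - τ ω)|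

/-- `u` is a flat cell: some line carries it up to `2 η` -/
def Fl (D : Ω → U) (S τ : Ω → ℝ) (w η : ℝ) (u : U) : Prop :=
  ∃ q : Ω × Ω, 0 < P.w q.1 ∧ 0 < P.w q.2 ∧ D q.1 = u ∧ D q.2 = u ∧ w ≤ |S q.2 - S q.1| ∧
    (P.cond D u).ex (fun a' => Law.ind (η ≤ dt S τ q.1 q.2 a')) ≤ 2 * η

/-- **step A** -/
theorem fl_of {D : Ω → U} {S τ : Ω → ℝ} {w η : ℝ} (hη : 0 < η) {ω : Ω} (hω : 0 < P.w ω)
    (hN : (P.cond D (D ω)).ex (fun a => Law.ind (|S a - S ω| < w)) ≤ 1 / 2)
    (hI : (P.cond D (D ω)).ex (fun a => (P.cond D (D ω)).ex (fun a' => Law.ind (η ≤ dt S τ ω a a'))) < η) :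
    Fl P D S τ w η (D ω) := by
  by_contra hcon
  have hz := P.pr_pos D hω
  have h1 : ∀ a, 0 < (P.cond D (D ω)).w a → 2 * η * (1 - Law.ind (|S a - S ω| < w)) ≤
      (P.cond D (D ω)).ex (fun a' => Law.ind (η ≤ dt S τ ω a a')) := by
    intro a ha
    obtain ⟨h2, h3⟩ := Vale.Agent.P127.U.Pin.cond_supp P D hz ha
    by_cases h4 : |S a - S ω| < w
    · rw [Law.ind_of h4]
      have : 0 ≤ (P.cond D (D ω)).ex (fun a' => Law.ind (η ≤ dt S τ ω a a')) :=
        Law.ex_nonneg _ fun _ _ => ind_nonneg _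
      linarith
    · rw [Law.ind_not h4]
      by_contra h5
      push Not at h5 h4
      exact hcon ⟨(ω, a), hω, h3, rfl, h2, h4, by linarith⟩
  have h2 := Law.ex_mono _ h1
  rw [Law.ex_const_mul, Law.ex_sub, Law.ex_const] at h2
  nlinarith

/-- two points of a class near the line of two copies: if the slopes differ, the times are close -/
theorem pair_geo {Ω : Type} {S τ θ σ : Ω → ℝ} {a a' ω ω' : Ω} {w η e0 e1 e3 r r0 M0 : ℝ} (hw : 0 < w) (hη : η = w * w)
    (q5 : w ≤ |S a' - S a|) (k6 : |τ a' - τ a| ≤ M0) (k1 : dt S τ a a' ω < η) (k2 : dt S τ a a' ω' < η)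
    (k3 : |τ ω - τ ω' - σ ω * (θ ω - θ ω')| ≤ e1) (k4 : |S ω - θ ω| ≤ e0) (k5 : |S ω' - θ ω'| ≤ e0)
    (g2 : r - e3 < |σ ω - (τ a' - τ a) / (S a' - S a)|) (hre : e3 < r)
    (hr : 2 * w + e1 + 2 * e0 * (M0 / w) ≤ (r - e3) * r0) : |θ ω - θ ω'| ≤ r0 := by
  unfold dt at k1 k2
  have s0 : S a' - S a ≠ 0 := by
    intro h0
    rw [h0, abs_zero] at q5
    linarith
  have sp : 0 < |S a' - S a| := abs_pos.2 s0
  obtain ⟨X0, hx⟩ : ∃ X0, X0 = (τ a' - τ a) / (S a' - S a) := ⟨_, rfl⟩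
  rw [← hx] at g2
  have hX0 : |X0| ≤ M0 / w := by
    rw [hx, abs_div]
    exact div_le_div₀ ((abs_nonneg _).trans k6) k6 hw q5
  have hxm : X0 * (S a' - S a) = τ a' - τ a := by
    rw [hx, div_mul_cancel₀ _ s0]
  have dev : ∀ z, |(S a' - S a) * (τ z - τ a) - (S z - S a) * (τ a' - τ a)| < η →
      |τ z - τ a - X0 * (S z - S a)| ≤ w := by
    intro z hz1
    have e : (S a' - S a) * (τ z - τ a) - (S z - S a) * (τ a' - τ a) =
        (S a' - S a) * (τ z - τ a - X0 * (S z - S a)) := by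
      rw [← hxm]
      ring
    rw [e, abs_mul, hη] at hz1
    by_contra hcon
    push Not at hcon
    have : w * w ≤ |S a' - S a| * |τ z - τ a - X0 * (S z - S a)| :=
      mul_le_mul q5 hcon.le hw.le (abs_nonneg _)
    linarith
  have d1 := dev ω k1
  have d2 := dev ω' k2
  have e2 : (σ ω - X0) * (θ ω - θ ω') = -(τ ω - τ ω' - σ ω * (θ ω - θ ω')) +
      (τ ω - τ a - X0 * (S ω - S a)) - (τ ω' - τ a - X0 * (S ω' - S a)) +
      X0 * ((S ω - θ ω) - (S ω' - θ ω')) := by ring
  have f1 : |X0 * ((S ω - θ ω) - (S ω' - θ ω'))| ≤ 2 * e0 * (M0 / w) := by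
    rw [abs_mul, mul_comm (2 * e0)]
    refine mul_le_mul hX0 ?_ (abs_nonneg _) ((abs_nonneg _).trans hX0)
    refine (abs_sub _ _).trans ?_
    linarith
  have e3' : |(σ ω - X0) * (θ ω - θ ω')| ≤ 2 * w + e1 + 2 * e0 * (M0 / w) := by
    rw [e2]
    have f2 := abs_le.1 f1
    have f3 := abs_le.1 k3
    have f4 := abs_le.1 d1
    have f5 := abs_le.1 d2
    rw [abs_le]
    constructor
    · linarith [f2.1, f3.2, f4.1, f5.2]
    · linarith [f2.2, f3.1, f4.2, f5.1]
  by_contra hcon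
  push Not at hcon
  rw [abs_mul] at e3'
  have g3 : (r - e3) * r0 < |σ ω - X0| * |θ ω - θ ω'| := by
    have i1 : 0 < r - e3 := by linarith
    rcases le_or_gt 0 r0 with hr0 | hr0
    · calc (r - e3) * r0 ≤ |σ ω - X0| * r0 := mul_le_mul_of_nonneg_right g2.le hr0
        _ < |σ ω - X0| * |θ ω - θ ω'| := mul_lt_mul_of_pos_left hcon (by linarith)
    · have i2 : (r - e3) * r0 < 0 := mul_neg_of_pos_of_neg i1 hr0
      exact i2.trans_le (by positivity)
  linarith

end

section main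

variable {Ω : Type} [Fintype Ω] {U V T : Type*} (P : Law Ω)

/-- **weak collinearity** -/
theorem weak_col {D : Ω → U} {W : Ω → V} {Y : Ω → T} {S τ θ σ : Ω → ℝ} {X : Ω → ℤ} {B : Ω → Prop}
    {w η c' ε ε1 β e0 e1 e3 r r0 M0 : ℝ} {k : ℕ} (hDY : Fn P D Y) (hw : 0 < w) (hη : η = w * w)
    (hrel : ∀ ω ω', 0 < P.w ω → 0 < P.w ω' → Y ω = Y ω' → |τ ω - τ ω' - σ ω * (θ ω - θ ω')| ≤ e1)
    (hσ : ∀ ω ω', 0 < P.w ω → 0 < P.w ω' → Y ω = Y ω' → |σ ω - σ ω'| ≤ e3)
    (hS : ∀ ω, 0 < P.w ω → |S ω - θ ω| ≤ e0)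
    (hτ : ∀ ω ω', 0 < P.w ω → 0 < P.w ω' → |τ ω - τ ω'| ≤ M0)
    (hX : ∀ ω ω', 0 < P.w ω → 0 < P.w ω' → |θ ω - θ ω'| ≤ r0 → |X ω - X ω'| ≤ (k : ℤ))
    (hre : e3 < r) (hr : 2 * w + e1 + 2 * e0 * (M0 / w) ≤ (r - e3) * r0)
    (hc : colp P X Y ≤ ε)
    (hn : P.ex (fun ω => (P.cond D (D ω)).ex (fun a => Law.ind (|S a - S ω| < w))) ≤ ε1)
    (hunk : ∀ ω, 0 < P.w ω → ∀ x : ℝ, prE P (fun ω' => W ω' = W ω ∧ |σ ω' - x| ≤ r) ≤ (1 - c') * P.pr W (W ω))
    (hDW : ∀ ω ω', 0 < P.w ω → 0 < P.w ω' → ¬ B ω → ¬ B ω' → W ω = W ω' → D ω = D ω')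
    (hβ : prE P B ≤ β) (hc0 : 0 < c') (hc1 : c' ≤ 1) :
    P.ex (fun ω => Law.ind ((P.cond D (D ω)).ex (fun a => (P.cond D (D ω)).ex (fun a' =>
      Law.ind (η ≤ dt S τ ω a a'))) < η)) ≤ 2 * ε1 + ((2 * k + 1) * ε + 4 * η + 2 * β) / c' := by
  classical
  have hη0 : 0 < η := by rw [hη]; positivity
  -- the line of a flat cell
  have hex : ∀ u : U, ∃ q : Ω × Ω, Fl P D S τ w η u → 0 < P.w q.1 ∧ 0 < P.w q.2 ∧ D q.1 = u ∧ D q.2 = u ∧
      w ≤ |S q.2 - S q.1| ∧ (P.cond D u).ex (fun a' => Law.ind (η ≤ dt S τ q.1 q.2 a')) ≤ 2 * η := by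
    intro u
    by_cases h : Fl P D S τ w η u
    · obtain ⟨q, hq⟩ := h
      exact ⟨q, fun _ => hq⟩
    · have : Nonempty Ω := by
        by_contra hne
        have := P.sum_one
        rw [not_nonempty_iff] at hne
        simp at this
      exact ⟨(Classical.arbitrary Ω, Classical.arbitrary Ω), fun h' => absurd h' h⟩
  choose q hq using hex
  let x : U → ℝ := fun u => (τ (q u).2 - τ (q u).1) / (S (q u).2 - S (q u).1)
  let Q : Ω → Prop := fun ω => Fl P D S τ w η (D ω)
  let G : Ω → Prop := fun ω => ¬ η ≤ dt S τ (q (D ω)).1 (q (D ω)).2 ω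
  let Far : Ω → Prop := fun ω => Q ω ∧ r < |σ ω - x (D ω)|
  let FarY : Ω → Prop := fun ω => ∃ ω', 0 < P.w ω' ∧ Y ω' = Y ω ∧ Far ω'
  -- step A
  have hA : P.ex (fun ω => Law.ind ((P.cond D (D ω)).ex (fun a => (P.cond D (D ω)).ex (fun a' =>
      Law.ind (η ≤ dt S τ ω a a'))) < η)) ≤ 2 * ε1 + prE P Q := by
    have h1 : P.ex (fun ω => Law.ind ((P.cond D (D ω)).ex (fun a => (P.cond D (D ω)).ex (fun a' =>
        Law.ind (η ≤ dt S τ ω a a'))) < η)) ≤
        P.ex (fun ω => 2 * (P.cond D (D ω)).ex (fun a => Law.ind (|S a - S ω| < w)) + Law.ind (Q ω)) := by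
      refine P.ex_mono fun ω hω => ?_
      have n0 : 0 ≤ (P.cond D (D ω)).ex (fun a => Law.ind (|S a - S ω| < w)) :=
        Law.ex_nonneg _ fun _ _ => ind_nonneg _
      have n1 := ind_nonneg (Q ω)
      by_cases h2 : (P.cond D (D ω)).ex (fun a => (P.cond D (D ω)).ex (fun a' =>
        Law.ind (η ≤ dt S τ ω a a'))) < η
      · rw [Law.ind_of h2]
        by_cases h3 : (P.cond D (D ω)).ex (fun a => Law.ind (|S a - S ω| < w)) ≤ 1 / 2
        · have h4 : Q ω := fl_of P hη0 hω h3 h2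
          rw [Law.ind_of h4]
          linarith
        · push Not at h3
          linarith
      · rw [Law.ind_not h2]
        linarith
    rw [P.ex_add, P.ex_const_mul] at h1
    rw [prE_ind P Q]
    linarith
  -- step C
  have hC : c' * prE P Q ≤ prE P Far + 2 * prE P B := by
    let A : Ω → Prop := fun ω => ∃ ω', 0 < P.w ω' ∧ ¬ B ω' ∧ W ω' = W ω ∧ Q ω'
    have a1 : prE P Q ≤ prE P A + prE P B := by
      rw [prE_ind, prE_ind, prE_ind, ← P.ex_add]
      refine P.ex_mono fun ω hω => ?_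
      have n1 := ind_nonneg (A ω)
      have n2 := ind_nonneg (B ω)
      by_cases h1 : Q ω
      · rw [Law.ind_of h1]
        by_cases h2 : B ω
        · rw [Law.ind_of h2]; linarith
        · have h3 : A ω := ⟨ω, hω, h2, rfl, h1⟩
          rw [Law.ind_of h3]; linarith
      · rw [Law.ind_not h1]; linarith
    have a2 : c' * prE P A ≤ prE P Far + prE P B := by
      have b1 : P.ex (fun ω => c' * Law.ind (A ω)) ≤
          P.ex (fun ω => (P.cond W (W ω)).ex (fun ω' => Law.ind (Far ω') + Law.ind (B ω'))) := by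
        refine P.ex_mono fun ω hω => ?_
        have hz := P.pr_pos W hω
        have n0 : 0 ≤ (P.cond W (W ω)).ex (fun ω' => Law.ind (Far ω') + Law.ind (B ω')) :=
          Law.ex_nonneg _ fun ω' _ => add_nonneg (ind_nonneg _) (ind_nonneg _)
        by_cases h1 : A ω
        · rw [Law.ind_of h1, mul_one]
          obtain ⟨ω1, w1, w2, w3, w4⟩ := h1
          have h2 := hunk ω hω (x (D ω1))
          have h3 : (P.cond W (W ω)).ex (fun ω' => Law.ind (|σ ω' - x (D ω1)| ≤ r)) ≤ 1 - c' := by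
            rw [cond_ex_ind P W _ hz, div_le_iff₀ hz, ← prE_ind]
            refine le_trans (le_of_eq ?_) h2
            congr 1
            funext ω'
            exact propext and_comm
          have h4 : (P.cond W (W ω)).ex (fun ω' => 1 - Law.ind (|σ ω' - x (D ω1)| ≤ r)) ≤
              (P.cond W (W ω)).ex (fun ω' => Law.ind (Far ω') + Law.ind (B ω')) := by
            refine Law.ex_mono _ fun ω' h' => ?_
            obtain ⟨h5, h6⟩ := Vale.Agent.P127.U.Pin.cond_supp P W hz h'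
            have n1 := ind_nonneg (Far ω')
            have n2 := ind_nonneg (B ω')
            by_cases h7 : |σ ω' - x (D ω1)| ≤ r
            · rw [Law.ind_of h7]; linarith
            · rw [Law.ind_not h7]
              by_cases h8 : B ω'
              · rw [Law.ind_of h8]; linarith
              · have h9 : D ω1 = D ω' := hDW ω1 ω' w1 h6 w2 h8 (w3.trans h5.symm)
                have h10 : Far ω' := by
                  refine ⟨?_, ?_⟩
                  · show Fl P D S τ w η (D ω')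
                    rw [← h9]
                    exact w4
                  · rw [← h9]
                    exact not_le.1 h7
                rw [Law.ind_of h10]; linarith
          rw [Law.ex_sub, Law.ex_const] at h4
          linarith
        · rw [Law.ind_not h1, mul_zero]
          exact n0
      rw [P.ex_const_mul, ex_cond P W (fun ω' => Law.ind (Far ω') + Law.ind (B ω')), P.ex_add, ← prE_ind, ← prE_ind,
        ← prE_ind] at b1
      exact b1
    have n3 := prE_nonneg P B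
    nlinarith
  -- step D
  have hFY : ∀ ω, 0 < P.w ω → FarY ω → Q ω ∧ r - e3 < |σ ω - x (D ω)| := by
    rintro ω hω ⟨ω', h1, h2, h3, h4⟩
    have h5 : D ω' = D ω := hDY ω' ω h1 hω h2
    have h6 := hσ ω' ω h1 hω h2
    refine ⟨?_, ?_⟩
    · show Fl P D S τ w η (D ω)
      rw [← h5]
      exact h3
    · rw [← h5]
      have := abs_sub_le (σ ω') (σ ω) (x (D ω'))
      linarith
  have hFYf : ∀ ω ω', 0 < P.w ω → 0 < P.w ω' → Y ω = Y ω' → Law.ind (FarY ω) = Law.ind (FarY ω') := by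
    intro ω ω' _ _ e
    have : FarY ω ↔ FarY ω' := by
      constructor
      · rintro ⟨a, h1, h2, h3⟩
        exact ⟨a, h1, h2.trans e, h3⟩
      · rintro ⟨a, h1, h2, h3⟩
        exact ⟨a, h1, h2.trans e.symm, h3⟩
    rw [propext this]
  -- the points of a flat cell off the line
  have hoff : P.ex (fun ω => Law.ind (FarY ω) * Law.ind (¬ G ω)) ≤ 2 * η := by
    have h1 : P.ex (fun ω => Law.ind (FarY ω) * Law.ind (¬ G ω)) ≤ P.ex (fun ω => Law.ind (Q ω ∧ ¬ G ω)) := by
      refine P.ex_mono fun ω hω => ?_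
      by_cases h2 : FarY ω
      · rw [Law.ind_of h2, one_mul]
        exact ind_mono fun h3 => ⟨(hFY ω hω h2).1, h3⟩
      · rw [Law.ind_not h2, zero_mul]
        exact ind_nonneg _
    refine h1.trans ?_
    rw [← ex_cond P D (fun ω => Law.ind (Q ω ∧ ¬ G ω)), ← P.ex_const (2 * η)]
    refine P.ex_mono fun ω hω => ?_
    have hz := P.pr_pos D hω
    by_cases h2 : Fl P D S τ w η (D ω)
    · refine le_trans ?_ (hq (D ω) h2).2.2.2.2.2
      refine Law.ex_mono _ fun ω' h' => ?_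
      obtain ⟨h5, h6⟩ := Vale.Agent.P127.U.Pin.cond_supp P D hz h'
      refine ind_mono fun h7 => ?_
      have h8 := not_not.1 h7.2
      rw [h5] at h8
      exact h8
    · have h3 : (P.cond D (D ω)).ex (fun ω' => Law.ind (Q ω' ∧ ¬ G ω')) ≤ (P.cond D (D ω)).ex (fun _ => 0) := by
        refine Law.ex_mono _ fun ω' h' => ?_
        obtain ⟨h5, h6⟩ := Vale.Agent.P127.U.Pin.cond_supp P D hz h'
        rw [Law.ind_not]
        rintro ⟨h7, _⟩
        apply h2
        have : Fl P D S τ w η (D ω') := h7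
        rwa [h5] at this
      rw [Law.ex_const] at h3
      linarith
  -- pairs
  have hpair : P.ex (fun ω => Law.ind (FarY ω) * (Law.ind (G ω) * (P.cond Y (Y ω)).ex (fun ω' => Law.ind (G ω')))) ≤
      (2 * k + 1) * ε := by
    have h1 : P.ex (fun ω => Law.ind (FarY ω) * (Law.ind (G ω) * (P.cond Y (Y ω)).ex (fun ω' => Law.ind (G ω')))) ≤
        P.ex (fun ω => (P.cond Y (Y ω)).ex (fun ω' => Law.ind (|X ω - X ω'| ≤ (k : ℤ)))) := by
      refine P.ex_mono fun ω hω => ?_
      have hz := P.pr_pos Y hω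
      have n0 : 0 ≤ (P.cond Y (Y ω)).ex (fun ω' => Law.ind (|X ω - X ω'| ≤ (k : ℤ))) :=
        Law.ex_nonneg _ fun _ _ => ind_nonneg _
      by_cases h2 : FarY ω
      · by_cases h3 : G ω
        · rw [Law.ind_of h2, Law.ind_of h3, one_mul, one_mul]
          refine Law.ex_mono _ fun ω' h' => ind_mono fun h4 => ?_
          obtain ⟨h5, h6⟩ := Vale.Agent.P127.U.Pin.cond_supp P Y hz h'
          obtain ⟨g1, g2⟩ := hFY ω hω h2
          obtain ⟨q1, q2, q3, q4, q5, q6⟩ := hq (D ω) g1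
          have hDD : D ω' = D ω := hDY ω' ω h6 hω h5
          refine hX ω ω' hω h6 ?_
          have k1 : dt S τ (q (D ω)).1 (q (D ω)).2 ω < η := not_le.1 h3
          have k2 : dt S τ (q (D ω)).1 (q (D ω)).2 ω' < η := by
            have := not_le.1 h4
            rwa [hDD] at this
          have k3 := hrel ω ω' hω h6 h5.symm
          have k4 := hS ω hω
          have k5 := hS ω' h6
          have k6 := hτ (q (D ω)).2 (q (D ω)).1 q2 q1
          exact pair_geo hw hη q5 k6 k1 k2 k3 k4 k5 g2 hre hr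
        · rw [Law.ind_not h3, zero_mul, mul_zero]
          exact n0
      · rw [Law.ind_not h2, zero_mul]
        exact n0
    refine h1.trans ((pair_near_le P X Y k).trans ?_)
    exact mul_le_mul_of_nonneg_left hc (by positivity)
  have hfar : prE P FarY ≤ (2 * k + 1) * ε + 4 * η := by
    have h1 : P.ex (fun ω => Law.ind (FarY ω) * (P.cond Y (Y ω)).ex (fun ω' => Law.ind (¬ G ω'))) ≤ 2 * η := by
      rw [tower_mul P Y (fun ω => Law.ind (FarY ω)) (fun ω' => Law.ind (¬ G ω')) hFYf]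
      exact hoff
    have h2 : P.ex (fun ω => Law.ind (FarY ω)) ≤
        P.ex (fun ω => Law.ind (FarY ω) * (Law.ind (G ω) * (P.cond Y (Y ω)).ex (fun ω' => Law.ind (G ω'))) +
          (Law.ind (FarY ω) * Law.ind (¬ G ω) +
            Law.ind (FarY ω) * (P.cond Y (Y ω)).ex (fun ω' => Law.ind (¬ G ω')))) := by
      refine P.ex_mono fun ω hω => ?_
      have e : (P.cond Y (Y ω)).ex (fun ω' => Law.ind (¬ G ω')) =
          1 - (P.cond Y (Y ω)).ex (fun ω' => Law.ind (G ω')) := by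
        have : (fun ω' => Law.ind (¬ G ω')) = fun ω' => 1 - Law.ind (G ω') := funext fun ω' => ind_compl _
        rw [this, Law.ex_sub, Law.ex_const]
      have b1 : (P.cond Y (Y ω)).ex (fun ω' => Law.ind (G ω')) ≤ 1 := by
        have := Law.ex_mono (P.cond Y (Y ω)) (f := fun ω' => Law.ind (G ω')) (g := fun _ => 1)
          fun ω' _ => ind_le_one _
        rwa [Law.ex_const] at this
      rw [e, show Law.ind (¬ G ω) = 1 - Law.ind (G ω) from ind_compl (G ω)]
      have n1 := ind_nonneg (FarY ω)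
      have n2 := ind_nonneg (G ω)
      have n3 := ind_le_one (G ω)
      set F := Law.ind (FarY ω)
      set g := Law.ind (G ω)
      set pq := (P.cond Y (Y ω)).ex (fun ω' => Law.ind (G ω'))
      have : 0 ≤ F * ((1 - g) * (1 - pq)) := mul_nonneg n1 (mul_nonneg (by linarith) (by linarith))
      nlinarith
    rw [P.ex_add, P.ex_add] at h2
    rw [prE_ind]
    linarith
  have hFF : prE P Far ≤ prE P FarY := by
    rw [prE_ind, prE_ind]
    exact P.ex_mono fun ω hω => ind_mono fun h => ⟨ω, hω, rfl, h⟩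
  have hfin : prE P Q ≤ ((2 * k + 1) * ε + 4 * η + 2 * β) / c' := by
    rw [le_div_iff₀ hc0]
    linarith
  linarith

end main

end Vale.Agent.P106.U.H471
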